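import Vale.Agent.P366.R2.H106.M5d

namespace Vale.Agent.Results.P366.AveragedTrace
open Vale.Agent.P366 Vale.Agent.P366.T1 Vale.Agent.T4 Vale.Agent.H177 Vale.Agent.H106

/-- The spacetime Penrose inequality for initial data whose centred spheres `S_r` are uniformly
expanding (arbitrary lapse, shift and intrinsic geometry) and on which `tr K` is constant (or which
satisfy a sharp integral inequality), with no other restriction on the second fundamental form `K`:
only the mean `t` of `tr_S K` over `S_r` is compared with the mean curvature `H`.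

Part 1: all `S_r`, `R ≤ r`, are of this kind; the bound is by the energy, and `P = 0` if the spheres
are time flat near infinity. Part 2: the `S_r` with `R ≤ r < R'` are of this kind and outside the
data end in a slice of a spherically symmetric spacetime, of any shape and boosted at infinity; the
conclusion is that of the Penrose inequality, with `P ≠ 0` in general. -/
theorem result (n : ℕ) (hn : 3 ≤ n) (D : Stmt.Exterior n) (hAF : D.IsAF) (hDEC : D.DEC)
    (hT : D.Trapped) (m : ℝ) (P : Fin n → ℝ) (hm : D.IsEnergy m) (hP : D.IsMomentum P)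
    (R : ℝ) (hR : IsGreatest {r | ∃ x, D.F x = 0 ∧ Stmt.len x = r} R)
    (hs : ∃ x, D.F x = 0 ∧ Stmt.len x = R ∧
      -Stmt.trS D.g D.K Stmt.len x ≤ |leafMeanTr D.g D.K R|) :
    ((∀ r, R ≤ r → AvgLeaf D.g D.K r) →
      D.Amin ≠ ⊤ ∧ 0 < m ∧
      (D.Amin.toReal / Stmt.omega n) ^ (((n : ℝ) - 2) / (n - 1)) / 2 ≤ m ∧
      ((∀ᶠ r in Filter.atTop, LeafFlat D.g D.K r) → P = 0)) ∧
    ∀ R', R < R' → (∀ r, R ≤ r → r < R' → AvgLeaf D.g D.K r) →
      (∀ x, Stmt.len x = R' → |Stmt.trS D.g D.K Stmt.len x| < sphereMean D.g x) →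
      ∀ (M : Spacetime) (c : ℝ), M.DEC n → M.IsAFIn n c →
      ∀ (f : Stmt.E n → ℝ) (L : Stmt.E n ≃L[ℝ] Stmt.E n), IsOuterSlice M f L D R' →
      (∃ b < c, ∃ ρ, ∀ x, ρ < Stmt.len x → |f x| ≤ b * Stmt.len x) →
      D.Amin ≠ ⊤ ∧ √(∑ i, P i ^ 2) < m ∧
      (D.Amin.toReal / Stmt.omega n) ^ (((n : ℝ) - 2) / (n - 1)) / 2 ≤
        √(m ^ 2 - ∑ i, P i ^ 2) := by
  refine ⟨fun hc => ?_, fun R' hRR hc hu M c hE hM f L hS hf =>
    avg_ends hn hAF hDEC hT hm hP hR hRR hs hc hu hE hM hS hf⟩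
  obtain ⟨h1, h2, h3⟩ := avg_final hn hAF hDEC hT hm hR hs hc
  exact ⟨h1, h2, h3, fun hF => momentum_zero hn (met_of (by omega) hR) hAF hF hP⟩

end Vale.Agent.Results.P366.AveragedTrace
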