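import Vale.Agent.P366.R2.H106.Ends

namespace Vale.Agent.Results.P366.BoostedEnds
open Vale.Agent.P366 Vale.Agent.P366.T1 Vale.Agent.T4 Vale.Agent.H177 Vale.Agent.H106

/-- The full conclusion of the spacetime Penrose inequality, with `P ≠ 0` in general, for initial
data without symmetry: for `|x| ≤ R'` the centred spheres outside the boundary are a generalised
inverse mean curvature flow (arbitrary lapse and shift; uniformly expanding or of constant mass
aspect with a sign for the torsion integral, for example time flat; or stable with parallel mean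
curvature vector; or subject to the integral inequality), and outside the data end in a slice of a
spherically symmetric spacetime, of any shape and boosted at infinity. -/
theorem result (n : ℕ) (hn : 3 ≤ n) (D : Stmt.Exterior n) (hAF : D.IsAF) (hDEC : D.DEC)
    (hT : D.Trapped) (m : ℝ) (P : Fin n → ℝ) (hm : D.IsEnergy m) (hP : D.IsMomentum P)
    (R R' : ℝ) (hR : IsGreatest {r | ∃ x, D.F x = 0 ∧ Stmt.len x = r} R) (hRR : R < R')
    (hleaf : LeafClassTo D.g D.K R R')
    (M : Spacetime) (c : ℝ) (hE : M.DEC n) (hM : M.IsAFIn n c)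
    (f : Stmt.E n → ℝ) (L : Stmt.E n ≃L[ℝ] Stmt.E n) (hS : IsOuterSlice M f L D R')
    (hf : ∃ b < c, ∃ ρ, ∀ x, ρ < Stmt.len x → |f x| ≤ b * Stmt.len x) :
    D.Amin ≠ ⊤ ∧ √(∑ i, P i ^ 2) < m ∧
    (D.Amin.toReal / Stmt.omega n) ^ (((n : ℝ) - 2) / (n - 1)) / 2 ≤
      √(m ^ 2 - ∑ i, P i ^ 2) :=
  final_ends hn hAF hDEC hT hm hP hR hRR hleaf hE hM hS hf

end Vale.Agent.Results.P366.BoostedEnds
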