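import Vale.Agent.P366.R2.H106.Final

namespace Vale.Agent.Results.P366.GeneralLeaves
open Vale.Agent.P366 Vale.Agent.T4 Vale.Agent.H177 Vale.Agent.H106

/-- The sharp spacetime Penrose inequality for initial data without any symmetry or normal form of
the metric (arbitrary lapse and shift, arbitrary intrinsic geometry of the leaves), whose centred
spheres outside the boundary are each either without untrapped points or untrapped and (i) uniformly
expanding or of constant mass aspect, with a sign for the integral of the torsion against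
`d (φ tr_S K)`, for example time flat; or (ii) stable with parallel mean curvature vector; or
(iii) subject to a sharp integral inequality. If `n = 3` no condition on the curvature of the leaves
is needed in (i) and (ii): it is proved by the Gauss-Bonnet theorem. If the spheres near infinity
are time flat the momentum is shown to vanish. -/
theorem result (n : ℕ) (hn : 3 ≤ n) (D : Stmt.Exterior n) (hAF : D.IsAF) (hDEC : D.DEC)
    (hT : D.Trapped) (m : ℝ) (P : Fin n → ℝ) (hm : D.IsEnergy m) (hP : D.IsMomentum P)
    (R : ℝ) (hR : IsGreatest {r | ∃ x, D.F x = 0 ∧ Stmt.len x = r} R)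
    (hleaf : LeafClass D.g D.K R) :
    D.Amin ≠ ⊤ ∧ 0 < m ∧
    (D.Amin.toReal / Stmt.omega n) ^ (((n : ℝ) - 2) / (n - 1)) / 2 ≤ m ∧
    ((∀ᶠ r in Filter.atTop, LeafFlat D.g D.K r) →
      P = 0 ∧ √(∑ i, P i ^ 2) < m ∧
      (D.Amin.toReal / Stmt.omega n) ^ (((n : ℝ) - 2) / (n - 1)) / 2 ≤
        √(m ^ 2 - ∑ i, P i ^ 2)) := by
  obtain ⟨h1, h2, h3, h4⟩ := final_leaf hn hAF hDEC hT hm hP hR hleaf
  refine ⟨h1, h2, h3, fun hF => ?_⟩
  have hP0 := h4 hF
  subst hP0
  refine ⟨rfl, ?_, ?_⟩
  · simpa using h2
  · simpa [Real.sqrt_sq h2.le] using h3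

end Vale.Agent.Results.P366.GeneralLeaves
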