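import Vale.Agent.P366.R2.H318.End2

namespace Vale.Agent.Results.P366.SymmetricMetric
open Vale.Agent.P366 Vale.Agent.P366.Stmt Vale.Agent.T4 Vale.Agent.H318

/-- Penrose inequalities with their equality cases for initial data whose metric is symmetric
outside the smallest centred ball containing the boundary, while the second fundamental form is
not. -/
theorem result (n : ℕ) (hn : 3 ≤ n) (D : Stmt.Exterior n) (hAF : D.IsAF) (hDEC : D.DEC)
    (hT : D.Trapped) (m : ℝ) (P : Fin n → ℝ) (hm : D.IsEnergy m) (hP : D.IsMomentum P)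
    (R₁ : ℝ) (hR₁ : IsGreatest {r | ∃ x, D.F x = 0 ∧ len x = r} R₁) :
    -- a metric invariant under a transitive group, radial trace: the bound for the energy
    (∀ G : Matrix (Fin n) (Fin n) ℝ → Prop, TransGroup n G → InvUnder G R₁ D.g →
      (∀ x y, R₁ ≤ len x → len x = len y → Stmt.tr D.g D.K x = Stmt.tr D.g D.K y) → Touch D R₁ →
      D.Amin ≠ ⊤ ∧ 0 < m ∧
        (D.Amin.toReal / Stmt.omega n) ^ (((n : ℝ) - 2) / (n - 1)) / 2 ≤ m ∧
        (Outermost D → (D.Amin.toReal / Stmt.omega n) ^ (((n : ℝ) - 2) / (n - 1)) / 2 = m →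
          P = 0 ∧ IsSlice m D.g D.K {x | R₁ < len x})) ∧
    -- a spherically symmetric metric, zero trace: the bound with the momentum
    (InvUnder (fun A => A.transpose * A = 1 ∧ A.det = 1) R₁ D.g →
      (∀ x, R₁ ≤ len x → Stmt.tr D.g D.K x = 0) →
      (∃ x, D.F x = 0 ∧ len x = R₁ ∧ 0 ≤ Stmt.trS D.g D.K len x) →
      (D.Amin ≠ ⊤ ∧ 0 < m ∧
        ((D.Amin.toReal / Stmt.omega n) ^ (((n : ℝ) - 2) / (n - 1)) / 2) ^ 2 +
          (n : ℝ) ^ 2 / (((n : ℝ) - 1) * ((n : ℝ) + 2)) * ∑ i, P i ^ 2 ≤ m ^ 2 ∧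
        (n = 3 → √(∑ i, P i ^ 2) < m ∧
          (D.Amin.toReal / Stmt.omega n) ^ (((n : ℝ) - 2) / (n - 1)) / 2 ≤
            √(m ^ 2 - ∑ i, P i ^ 2))) ∧
      -- equality in either bound
      (((D.Amin.toReal / Stmt.omega n) ^ (((n : ℝ) - 2) / (n - 1)) / 2) ^ 2 +
          (n : ℝ) ^ 2 / (((n : ℝ) - 1) * ((n : ℝ) + 2)) * ∑ i, P i ^ 2 = m ^ 2 →
        P = 0 ∧ (Outermost D → IsSlice m D.g D.K {x | R₁ < len x})) ∧
      (n = 3 → (D.Amin.toReal / Stmt.omega n) ^ (((n : ℝ) - 2) / (n - 1)) / 2 =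
          √(m ^ 2 - ∑ i, P i ^ 2) →
        P = 0 ∧ (Outermost D → IsSlice m D.g D.K {x | R₁ < len x}))) :=
  ⟨fun _ hG hg htr ht => by
    obtain ⟨h1, h2, h3⟩ := part1_tr hn hAF hDEC hT hm hR₁ hG hg htr ht
    exact ⟨h1, h2, h3, fun hO heq => part1_eq hn hAF hDEC hT hm hP hR₁ hG hg htr ht hO heq⟩,
    fun hg htr ht => ⟨part23 hn hAF hDEC hT hm hP hR₁ hg htr ht,
      part23_eq hn hAF hDEC hT hm hP hR₁ hg htr ht⟩⟩

end Vale.Agent.Results.P366.SymmetricMetric
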